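/-
S0170 team project, work package A5a (helper72):
the explicit move field `moveField` is smooth, compactly supported, vanishes outside its
time window and outside the enlarged open cell, is divergence-free, and on the plateau it is
`S'(t) * (α + ⟨w, x⟩) e_a`.
-/
import Crest.Agent.Helper21.BoxFlow.Defs

set_option autoImplicit false
set_option linter.unusedVariables false
open scoped ContDiff
open Crest.AnalysisR.BoxFlow Crest.Agent.Helper21

namespace Crest.Agent.Helper72

noncomputable section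

/-! ### The smooth step -/

theorem stp_contDiff : ContDiff ℝ ∞ stp := Real.smoothTransition.contDiff

theorem stp_nonneg (x : ℝ) : 0 ≤ stp x := Real.smoothTransition.nonneg x

theorem stp_le_one (x : ℝ) : stp x ≤ 1 := Real.smoothTransition.le_one x

theorem stp_zero_of_nonpos {x : ℝ} (h : x ≤ 0) : stp x = 0 :=
  Real.smoothTransition.zero_of_nonpos h

theorem stp_one_of_one_le {x : ℝ} (h : 1 ≤ x) : stp x = 1 :=
  Real.smoothTransition.one_of_one_le h

/-- A function with values in `[0, ∞)` has derivative zero wherever it vanishes. -/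
theorem deriv_eq_zero_of_nonneg_of_eq_zero {f : ℝ → ℝ} (hf : ∀ y, 0 ≤ f y) {x : ℝ}
    (hx : f x = 0) : deriv f x = 0 :=
  IsLocalMin.deriv_eq_zero (Filter.Eventually.of_forall fun y => by rw [hx]; exact hf y)

/-- A function with values in `(-∞, 1]` has derivative zero wherever it equals one. -/
theorem deriv_eq_zero_of_le_one_of_eq_one {f : ℝ → ℝ} (hf : ∀ y, f y ≤ 1) {x : ℝ}
    (hx : f x = 1) : deriv f x = 0 :=
  IsLocalMax.deriv_eq_zero (Filter.Eventually.of_forall fun y => by rw [hx]; exact hf y)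

/-! ### The plateau function -/

theorem plat_contDiff (lo hi m : ℚ) : ContDiff ℝ ∞ (plat lo hi m) := by
  unfold plat
  apply ContDiff.mul
  · exact stp_contDiff.comp ((contDiff_id.sub contDiff_const).div_const _)
  · exact stp_contDiff.comp ((contDiff_const.sub contDiff_id).div_const _)

theorem plat_nonneg (lo hi m : ℚ) (x : ℝ) : 0 ≤ plat lo hi m x :=
  mul_nonneg (stp_nonneg _) (stp_nonneg _)

theorem plat_le_one (lo hi m : ℚ) (x : ℝ) : plat lo hi m x ≤ 1 :=
  mul_le_one₀ (stp_le_one _) (stp_nonneg _) (stp_le_one _)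

theorem plat_eq_zero {lo hi m : ℚ} (hm : 0 < m) {x : ℝ}
    (hx : x ≤ (lo : ℝ) - m ∨ (hi : ℝ) + m ≤ x) : plat lo hi m x = 0 := by
  have hm' : (0 : ℝ) < m := by exact_mod_cast hm
  unfold plat
  rcases hx with hx | hx
  · rw [stp_zero_of_nonpos, zero_mul]
    exact div_nonpos_of_nonpos_of_nonneg (by linarith) hm'.le
  · rw [stp_zero_of_nonpos (x := (((hi : ℝ) + m) - x) / m), mul_zero]
    exact div_nonpos_of_nonpos_of_nonneg (by linarith) hm'.le

theorem plat_eq_one {lo hi m : ℚ} (hm : 0 < m) {x : ℝ} (h1 : (lo : ℝ) ≤ x) (h2 : x ≤ (hi : ℝ)) :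
    plat lo hi m x = 1 := by
  have hm' : (0 : ℝ) < m := by exact_mod_cast hm
  unfold plat
  rw [stp_one_of_one_le, stp_one_of_one_le, mul_one]
  · rw [le_div_iff₀ hm']; linarith
  · rw [le_div_iff₀ hm']; linarith

theorem deriv_plat_eq_zero {lo hi m : ℚ} (hm : 0 < m) {x : ℝ}
    (hx : x ≤ (lo : ℝ) - m ∨ (hi : ℝ) + m ≤ x) : deriv (plat lo hi m) x = 0 :=
  deriv_eq_zero_of_nonneg_of_eq_zero (plat_nonneg lo hi m) (plat_eq_zero hm hx)

theorem deriv_plat_eq_zero_of_mem {lo hi m : ℚ} (hm : 0 < m) {x : ℝ} (h1 : (lo : ℝ) ≤ x)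
    (h2 : x ≤ (hi : ℝ)) : deriv (plat lo hi m) x = 0 :=
  deriv_eq_zero_of_le_one_of_eq_one (plat_le_one lo hi m) (plat_eq_one hm h1 h2)

theorem deriv_plat_contDiff (lo hi m : ℚ) : ContDiff ℝ ∞ (deriv (plat lo hi m)) :=
  (contDiff_infty_iff_deriv.1 (plat_contDiff lo hi m)).2

theorem plat_hasDerivAt (lo hi m : ℚ) (x : ℝ) :
    HasDerivAt (plat lo hi m) (deriv (plat lo hi m) x) x :=
  (((plat_contDiff lo hi m).differentiable (by simp)) x).hasDerivAt

/-! ### The time profile -/

theorem timeProfile_contDiff (t₀ t₁ : ℚ) : ContDiff ℝ ∞ (timeProfile t₀ t₁) := by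
  unfold timeProfile
  exact stp_contDiff.comp ((contDiff_id.sub contDiff_const).div_const _)

theorem timeProfile_nonneg (t₀ t₁ : ℚ) (t : ℝ) : 0 ≤ timeProfile t₀ t₁ t := stp_nonneg _

theorem timeProfile_le_one (t₀ t₁ : ℚ) (t : ℝ) : timeProfile t₀ t₁ t ≤ 1 := stp_le_one _

theorem timeProfile_eq_zero {t₀ t₁ : ℚ} (ht : t₀ < t₁) {t : ℝ} (h : t ≤ (t₀ : ℝ)) :
    timeProfile t₀ t₁ t = 0 := by
  have ht' : (0 : ℝ) < (t₁ : ℝ) - t₀ := by
    have : (t₀ : ℝ) < t₁ := by exact_mod_cast ht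
    linarith
  unfold timeProfile
  exact stp_zero_of_nonpos (div_nonpos_of_nonpos_of_nonneg (by linarith) ht'.le)

theorem timeProfile_eq_one {t₀ t₁ : ℚ} (ht : t₀ < t₁) {t : ℝ} (h : (t₁ : ℝ) ≤ t) :
    timeProfile t₀ t₁ t = 1 := by
  have ht' : (0 : ℝ) < (t₁ : ℝ) - t₀ := by
    have : (t₀ : ℝ) < t₁ := by exact_mod_cast ht
    linarith
  unfold timeProfile
  apply stp_one_of_one_le
  rw [le_div_iff₀ ht']; linarith

theorem deriv_timeProfile_eq_zero {t₀ t₁ : ℚ} (ht : t₀ < t₁) {t : ℝ}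
    (h : t ≤ (t₀ : ℝ) ∨ (t₁ : ℝ) ≤ t) : deriv (timeProfile t₀ t₁) t = 0 := by
  rcases h with h | h
  · exact deriv_eq_zero_of_nonneg_of_eq_zero (timeProfile_nonneg t₀ t₁) (timeProfile_eq_zero ht h)
  · exact deriv_eq_zero_of_le_one_of_eq_one (timeProfile_le_one t₀ t₁) (timeProfile_eq_one ht h)

theorem deriv_timeProfile_contDiff (t₀ t₁ : ℚ) : ContDiff ℝ ∞ (deriv (timeProfile t₀ t₁)) :=
  (contDiff_infty_iff_deriv.1 (timeProfile_contDiff t₀ t₁)).2

/-! ### Index bookkeeping in `Fin 3` -/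

theorem fin3_succ_ne (a : Fin 3) : a + 1 ≠ a := by revert a; decide

theorem fin3_succ2_ne (a : Fin 3) : a + 2 ≠ a := by revert a; decide

theorem fin3_succ2_ne_succ (a : Fin 3) : a + 2 ≠ a + 1 := by revert a; decide

theorem fin3_cases (a j : Fin 3) : j = a ∨ j = a + 1 ∨ j = a + 2 := by revert a j; decide

theorem fin3_sum (a : Fin 3) (F : Fin 3 → ℝ) : ∑ j, F j = F a + F (a + 1) + F (a + 2) := by
  fin_cases a <;> simp [Fin.sum_univ_three] <;> ring

/-! ### The components of the move field -/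

section move
variable (a : Fin 3) (α : ℚ) (w lo hi : Fin 3 → ℚ) (m t₀ t₁ : ℚ)

/-- The functional `∂_b f = α + w_b x_b + w_c x_c`. -/
def lamF (x : Sp) : ℝ :=
  (α : ℝ) + (w (a + 1) : ℝ) * x (a + 1) + (w (a + 2) : ℝ) * x (a + 2)

/-- Component `a` of the move field. -/
def compA (p : ℝ × Sp) : ℝ :=
  deriv (timeProfile t₀ t₁) p.1 *
    (plat (lo a) (hi a) m (p.2 a) * plat (lo (a + 2)) (hi (a + 2)) m (p.2 (a + 2)) *
      (deriv (plat (lo (a + 1)) (hi (a + 1)) m) (p.2 (a + 1)) * potF a α w p.2 +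
        plat (lo (a + 1)) (hi (a + 1)) m (p.2 (a + 1)) * lamF a α w p.2))

/-- Component `a + 1` of the move field. -/
def compB (p : ℝ × Sp) : ℝ :=
  -(deriv (timeProfile t₀ t₁) p.1 *
    (deriv (plat (lo a) (hi a) m) (p.2 a) * plat (lo (a + 1)) (hi (a + 1)) m (p.2 (a + 1)) *
      plat (lo (a + 2)) (hi (a + 2)) m (p.2 (a + 2)) * potF a α w p.2))

theorem moveField_apply (p : ℝ × Sp) (j : Fin 3) :
    moveField a α w lo hi m t₀ t₁ p j =
      if j = a then compA a α w lo hi m t₀ t₁ p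
      else if j = a + 1 then compB a α w lo hi m t₀ t₁ p else 0 := rfl

theorem coord_contDiff (j : Fin 3) : ContDiff ℝ ∞ (fun p : ℝ × Sp => p.2 j) :=
  (contDiff_apply ℝ ℝ j).comp contDiff_snd

theorem potF_contDiff : ContDiff ℝ ∞ (fun p : ℝ × Sp => potF a α w p.2) := by
  unfold potF
  exact (coord_contDiff _).mul
    (((contDiff_const.add ((contDiff_const.mul (coord_contDiff _)).div_const _)).add
      (contDiff_const.mul (coord_contDiff _))))

theorem lamF_contDiff : ContDiff ℝ ∞ (fun p : ℝ × Sp => lamF a α w p.2) := by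
  unfold lamF
  exact (contDiff_const.add (contDiff_const.mul (coord_contDiff _))).add
      (contDiff_const.mul (coord_contDiff _))

theorem compA_contDiff : ContDiff ℝ ∞ (compA a α w lo hi m t₀ t₁) := by
  unfold compA
  have hS : ContDiff ℝ ∞ (fun p : ℝ × Sp => deriv (timeProfile t₀ t₁) p.1) :=
    (deriv_timeProfile_contDiff t₀ t₁).comp contDiff_fst
  have hp : ∀ j, ContDiff ℝ ∞ (fun p : ℝ × Sp => plat (lo j) (hi j) m (p.2 j)) :=
    fun j => (plat_contDiff _ _ _).comp (coord_contDiff j)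
  have hp' : ∀ j, ContDiff ℝ ∞ (fun p : ℝ × Sp => deriv (plat (lo j) (hi j) m) (p.2 j)) :=
    fun j => (deriv_plat_contDiff _ _ _).comp (coord_contDiff j)
  exact hS.mul (((hp a).mul (hp (a + 2))).mul
    (((hp' (a + 1)).mul (potF_contDiff a α w)).add ((hp (a + 1)).mul (lamF_contDiff a α w))))

theorem compB_contDiff : ContDiff ℝ ∞ (compB a α w lo hi m t₀ t₁) := by
  unfold compB
  have hS : ContDiff ℝ ∞ (fun p : ℝ × Sp => deriv (timeProfile t₀ t₁) p.1) :=
    (deriv_timeProfile_contDiff t₀ t₁).comp contDiff_fst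
  have hp : ∀ j, ContDiff ℝ ∞ (fun p : ℝ × Sp => plat (lo j) (hi j) m (p.2 j)) :=
    fun j => (plat_contDiff _ _ _).comp (coord_contDiff j)
  have hp' : ∀ j, ContDiff ℝ ∞ (fun p : ℝ × Sp => deriv (plat (lo j) (hi j) m) (p.2 j)) :=
    fun j => (deriv_plat_contDiff _ _ _).comp (coord_contDiff j)
  exact (hS.mul ((((hp' a).mul (hp (a + 1))).mul (hp (a + 2))).mul (potF_contDiff a α w))).neg

/-! ### The six statements of the work package -/

theorem moveField_contDiff (hm : 0 < m) (ht : t₀ < t₁) :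
    ContDiff ℝ ∞ (moveField a α w lo hi m t₀ t₁) := by
  rw [contDiff_pi]
  intro j
  simp only [moveField_apply]
  by_cases h1 : j = a
  · simp only [h1, if_true]
    exact compA_contDiff a α w lo hi m t₀ t₁
  · simp only [if_neg h1]
    by_cases h2 : j = a + 1
    · simp only [h2, if_true]
      exact compB_contDiff a α w lo hi m t₀ t₁
    · simp only [if_neg h2]
      exact contDiff_const

theorem moveField_time_zero (hm : 0 < m) (ht : t₀ < t₁) (p : ℝ × Sp)
    (hp : p.1 ≤ (t₀ : ℝ) ∨ (t₁ : ℝ) ≤ p.1) : moveField a α w lo hi m t₀ t₁ p = 0 := by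
  funext j
  rw [moveField_apply]
  simp only [compA, compB, deriv_timeProfile_eq_zero ht hp, zero_mul, neg_zero, ite_self,
    Pi.zero_apply]

theorem moveField_space_zero (hm : 0 < m) (ht : t₀ < t₁) (p : ℝ × Sp)
    (hp : p.2 ∉ openCell (fun l => lo l - m) (fun l => hi l + m)) :
    moveField a α w lo hi m t₀ t₁ p = 0 := by
  have hex : ∃ l, p.2 l ≤ (lo l : ℝ) - m ∨ (hi l : ℝ) + m ≤ p.2 l := by
    by_contra hcon
    push Not at hcon
    apply hp
    intro l
    have := hcon l
    constructor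
    · push_cast; exact this.1
    · push_cast; exact this.2
  obtain ⟨l, hl⟩ := hex
  have h0 : plat (lo l) (hi l) m (p.2 l) = 0 := plat_eq_zero hm hl
  have h0' : deriv (plat (lo l) (hi l) m) (p.2 l) = 0 := deriv_plat_eq_zero hm hl
  funext j
  rw [moveField_apply]
  rcases fin3_cases a l with rfl | rfl | rfl
  · simp only [compA, compB, h0, h0', zero_mul, mul_zero, neg_zero, ite_self, Pi.zero_apply]
  · simp only [compA, compB, h0, h0', zero_mul, mul_zero, neg_zero, ite_self, Pi.zero_apply,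
      add_zero]
  · simp only [compA, compB, h0, zero_mul, mul_zero, neg_zero, ite_self, Pi.zero_apply]

theorem moveField_hasCompactSupport (hm : 0 < m) (ht : t₀ < t₁) :
    HasCompactSupport (moveField a α w lo hi m t₀ t₁) := by
  have hK : IsCompact ((Set.Icc (t₀ : ℝ) t₁) ×ˢ
      (Set.Icc (fun l => (lo l : ℝ) - m) (fun l => (hi l : ℝ) + m) : Set Sp)) :=
    isCompact_Icc.prod isCompact_Icc
  refine HasCompactSupport.intro hK ?_
  intro p hp
  by_cases h1 : p.1 ≤ (t₀ : ℝ) ∨ (t₁ : ℝ) ≤ p.1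
  · exact moveField_time_zero a α w lo hi m t₀ t₁ hm ht p h1
  · apply moveField_space_zero a α w lo hi m t₀ t₁ hm ht p
    intro hcell
    apply hp
    push Not at h1
    refine ⟨⟨h1.1.le, h1.2.le⟩, ?_, ?_⟩
    · intro l
      have := (hcell l).1
      push_cast at this
      exact this.le
    · intro l
      have := (hcell l).2
      push_cast at this
      exact this.le

theorem moveField_plateau (hw : w a = 0) (hm : 0 < m) (ht : t₀ < t₁) (p : ℝ × Sp)
    (hp : p.2 ∈ closedCell lo hi) :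
    moveField a α w lo hi m t₀ t₁ p =
      (deriv (timeProfile t₀ t₁) p.1 * affFun α w p.2) • (Pi.single a (1 : ℝ) : Sp) := by
  have h1 : ∀ l, plat (lo l) (hi l) m (p.2 l) = 1 := fun l => plat_eq_one hm (hp l).1 (hp l).2
  have h0 : ∀ l, deriv (plat (lo l) (hi l) m) (p.2 l) = 0 :=
    fun l => deriv_plat_eq_zero_of_mem hm (hp l).1 (hp l).2
  have haff : affFun α w p.2 = lamF a α w p.2 := by
    unfold affFun lamF
    rw [fin3_sum a, hw]
    push_cast
    ring
  funext j
  rw [moveField_apply]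
  simp only [compA, compB, h1, h0, zero_mul, mul_zero, neg_zero, one_mul, zero_add, Pi.smul_apply,
    Pi.single_apply, smul_eq_mul, haff]
  by_cases hj : j = a
  · simp [hj]
  · simp [hj]

/-! ### Divergence -/

theorem shift_same (x : Sp) (s : ℝ) (j : Fin 3) :
    (x + s • (Pi.single j (1 : ℝ) : Sp)) j = x j + s := by simp

theorem shift_ne (x : Sp) (s : ℝ) {j l : Fin 3} (h : l ≠ j) :
    (x + s • (Pi.single j (1 : ℝ) : Sp)) l = x l := by simp [h]

/-- The partial derivative in the direction of a space coordinate, computed along the line. -/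
theorem fderiv_coord_eq {U : Field} {p : ℝ × Sp} (hdiff : DifferentiableAt ℝ U p) (j : Fin 3)
    (D : ℝ)
    (hD : HasDerivAt (fun s : ℝ => U (p.1, p.2 + s • (Pi.single j (1 : ℝ) : Sp)) j) D 0) :
    fderiv ℝ U p (0, Pi.single j 1) j = D := by
  have hc : HasDerivAt (fun s : ℝ => ((p.1, p.2 + s • (Pi.single j (1 : ℝ) : Sp)) : ℝ × Sp))
      ((0 : ℝ), (Pi.single j (1 : ℝ) : Sp)) 0 := by
    refine HasDerivAt.prodMk (hasDerivAt_const _ _) ?_
    have := ((hasDerivAt_id (0 : ℝ)).smul_const (Pi.single j (1 : ℝ) : Sp)).const_add p.2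
    simpa using this
  have hp0 : (p.1, p.2 + (0 : ℝ) • (Pi.single j (1 : ℝ) : Sp)) = p := by simp
  have hF : HasFDerivAt U (fderiv ℝ U p) (p.1, p.2 + (0 : ℝ) • (Pi.single j (1 : ℝ) : Sp)) := by
    rw [hp0]; exact hdiff.hasFDerivAt
  have h2 := hF.comp_hasDerivAt (0 : ℝ) hc
  have h3 := (hasDerivAt_pi.1 h2) j
  exact h3.unique hD

theorem moveField_div (hm : 0 < m) (ht : t₀ < t₁) (p : ℝ × Sp) :
    spaceDiv (moveField a α w lo hi m t₀ t₁) p = 0 := by
  have hdiff : DifferentiableAt ℝ (moveField a α w lo hi m t₀ t₁) p :=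
    ((moveField_contDiff a α w lo hi m t₀ t₁ hm ht).differentiable (by simp)) p
  -- component `a`
  have hA : HasDerivAt
      (fun s : ℝ => moveField a α w lo hi m t₀ t₁ (p.1, p.2 + s • (Pi.single a (1 : ℝ) : Sp)) a)
      (deriv (timeProfile t₀ t₁) p.1 *
        (deriv (plat (lo a) (hi a) m) (p.2 a) *
          (plat (lo (a + 2)) (hi (a + 2)) m (p.2 (a + 2)) *
          (deriv (plat (lo (a + 1)) (hi (a + 1)) m) (p.2 (a + 1)) * potF a α w p.2 +
            plat (lo (a + 1)) (hi (a + 1)) m (p.2 (a + 1)) * lamF a α w p.2)))) 0 := by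
    have hfun : (fun s : ℝ =>
        moveField a α w lo hi m t₀ t₁ (p.1, p.2 + s • (Pi.single a (1 : ℝ) : Sp)) a) =
        fun s : ℝ => deriv (timeProfile t₀ t₁) p.1 *
          (plat (lo a) (hi a) m (p.2 a + s) *
            (plat (lo (a + 2)) (hi (a + 2)) m (p.2 (a + 2)) *
            (deriv (plat (lo (a + 1)) (hi (a + 1)) m) (p.2 (a + 1)) * potF a α w p.2 +
              plat (lo (a + 1)) (hi (a + 1)) m (p.2 (a + 1)) * lamF a α w p.2))) := by
      funext s
      rw [moveField_apply, if_pos rfl]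
      unfold compA potF lamF
      simp only [shift_same, shift_ne _ _ (fin3_succ_ne a), shift_ne _ _ (fin3_succ2_ne a)]
      ring
    rw [hfun]
    have hP : HasDerivAt (fun s : ℝ => plat (lo a) (hi a) m (p.2 a + s))
        (deriv (plat (lo a) (hi a) m) (p.2 a)) 0 := by
      have h := plat_hasDerivAt (lo a) (hi a) m (p.2 a + 0)
      have h' := h.comp_const_add (p.2 a) 0
      simpa using h'
    exact (hP.mul_const _).const_mul _
  -- component `a + 1`
  have hB : HasDerivAt
      (fun s : ℝ =>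
        moveField a α w lo hi m t₀ t₁ (p.1, p.2 + s • (Pi.single (a + 1) (1 : ℝ) : Sp)) (a + 1))
      (-(deriv (timeProfile t₀ t₁) p.1 *
        (deriv (plat (lo a) (hi a) m) (p.2 a) *
          (plat (lo (a + 2)) (hi (a + 2)) m (p.2 (a + 2)) *
          (deriv (plat (lo (a + 1)) (hi (a + 1)) m) (p.2 (a + 1)) * potF a α w p.2 +
            plat (lo (a + 1)) (hi (a + 1)) m (p.2 (a + 1)) * lamF a α w p.2))))) 0 := by
    have hfun : (fun s : ℝ =>
        moveField a α w lo hi m t₀ t₁ (p.1, p.2 + s • (Pi.single (a + 1) (1 : ℝ) : Sp)) (a + 1)) =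
        fun s : ℝ => -(deriv (timeProfile t₀ t₁) p.1 *
          (deriv (plat (lo a) (hi a) m) (p.2 a) *
            (plat (lo (a + 2)) (hi (a + 2)) m (p.2 (a + 2)) *
            (plat (lo (a + 1)) (hi (a + 1)) m (p.2 (a + 1) + s) *
              ((p.2 (a + 1) + s) * ((α : ℝ) + (w (a + 1) : ℝ) * (p.2 (a + 1) + s) / 2 +
                (w (a + 2) : ℝ) * p.2 (a + 2))))))) := by
      funext s
      rw [moveField_apply, if_neg (fin3_succ_ne a), if_pos rfl]
      unfold compB potF
      simp only [shift_same, shift_ne _ _ (fin3_succ_ne a).symm,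
        shift_ne _ _ (fin3_succ2_ne_succ a)]
      ring
    rw [hfun]
    have hP : HasDerivAt (fun s : ℝ => plat (lo (a + 1)) (hi (a + 1)) m (p.2 (a + 1) + s))
        (deriv (plat (lo (a + 1)) (hi (a + 1)) m) (p.2 (a + 1))) 0 := by
      have h := plat_hasDerivAt (lo (a + 1)) (hi (a + 1)) m (p.2 (a + 1) + 0)
      have h' := h.comp_const_add (p.2 (a + 1)) 0
      simpa using h'
    have hid : HasDerivAt (fun s : ℝ => p.2 (a + 1) + s) 1 0 :=
      (hasDerivAt_id (0 : ℝ)).const_add (p.2 (a + 1))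
    have hQ : HasDerivAt (fun s : ℝ => (p.2 (a + 1) + s) *
        ((α : ℝ) + (w (a + 1) : ℝ) * (p.2 (a + 1) + s) / 2 + (w (a + 2) : ℝ) * p.2 (a + 2)))
        (lamF a α w p.2) 0 := by
      have h1 := hid.mul ((((hid.const_mul (w (a + 1) : ℝ)).div_const 2).const_add (α : ℝ)).add_const
        ((w (a + 2) : ℝ) * p.2 (a + 2)))
      refine h1.congr_deriv ?_
      unfold lamF
      ring
    have hPQ := hP.mul hQ
    have hfin := (((hPQ.const_mul (plat (lo (a + 2)) (hi (a + 2)) m (p.2 (a + 2)))).const_mul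
      (deriv (plat (lo a) (hi a) m) (p.2 a))).const_mul (deriv (timeProfile t₀ t₁) p.1)).neg
    refine hfin.congr_deriv ?_
    unfold potF
    simp only [add_zero]
  -- component `a + 2`
  have hC : HasDerivAt
      (fun s : ℝ =>
        moveField a α w lo hi m t₀ t₁ (p.1, p.2 + s • (Pi.single (a + 2) (1 : ℝ) : Sp)) (a + 2))
      0 0 := by
    have hfun : (fun s : ℝ =>
        moveField a α w lo hi m t₀ t₁ (p.1, p.2 + s • (Pi.single (a + 2) (1 : ℝ) : Sp)) (a + 2)) =
        fun _ => (0 : ℝ) := by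
      funext s
      rw [moveField_apply, if_neg (fin3_succ2_ne a), if_neg (fin3_succ2_ne_succ a)]
    rw [hfun]
    exact hasDerivAt_const _ _
  unfold spaceDiv
  rw [fin3_sum a, fderiv_coord_eq hdiff a _ hA, fderiv_coord_eq hdiff (a + 1) _ hB,
    fderiv_coord_eq hdiff (a + 2) _ hC]
  ring

end move

end

end Crest.Agent.Helper72
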